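import Vale.Agent.P207.Q.H791.Final
import Vale.Agent.P207.Q.H717.PPinch

/-!
# P207: the final statement for a class of negatively curved 3-manifolds, from the core theorem
-/

open scoped Manifold ContDiff ENNReal
open Bundle MeasureTheory Set Filter

noncomputable section

namespace Vale.Agent.P207F.QP

open Vale.Agent.P255 (RMetric innerAt coefIn Gam Riem IsGeo)
open Vale.Agent.P207F

variable {M : Type} [TopologicalSpace M] [CompactSpace M] [T2Space M] [ConnectedSpace M]
  [ChartedSpace (EV 3) M] [IsManifold 𝓘(ℝ, EV 3) ∞ M] [MeasurableSpace M] [BorelSpace M]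

/-- the final statement from the core theorem, for any class of negatively curved metrics -/
theorem final2 {P : RMetric (EV 3) M → Prop} (hP : ∀ g, P g → NegCurvature g)
    (core : ∀ g : RMetric (EV 3) M, P g → ∀ φ μ m, P207.IsGeoFlow g φ →
      P207.IsRiemVol g μ → P207.IsLiouville g μ m →
      P207.ksEntropy m (φ 1) = P207.topEntropy (φ 1) → ∃ κ, ConstCurvature g κ) :
    (∀ g : RMetric (EV 3) M, WellDefined (stdB 3) g) ∧
    ∀ g : RMetric (EV 3) M, P g → NegCurvature g ∧ hLiou (stdB 3) g ≤ hTop g ∧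
      (hLiou (stdB 3) g = hTop g ↔ LocSymmetric g) ∧
      (hLiou (stdB 3) g = hTop g ↔ ∃ κ : ℝ, 0 < κ ∧ ConstCurvature g κ) := by
  have hW := fun g : RMetric (EV 3) M => wellDefined (by norm_num) g
  refine ⟨hW, fun g hQ => ?_⟩
  have hN : NegCurvature g := hP g hQ
  have hφ := ((hW g).1 _).2 rfl
  have hμ := ((hW g).2.1 _).2 rfl
  have hm := ((hW g).2.2 _).2 rfl
  have h1 : LocSymmetric g → hLiou (stdB 3) g = hTop g := fun hs =>
    P207.ksEntropy_eq_of_locSymmetric (by norm_num) hφ hμ hm hN hs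
  have h2 : hLiou (stdB 3) g = hTop g → ∃ κ : ℝ, 0 < κ ∧ ConstCurvature g κ := by
    intro he
    obtain ⟨κ, hκ⟩ := core g hQ _ _ _ hφ hμ hm he
    exact ⟨κ, pos_of_constCurvature (by norm_num) hκ hN, hκ⟩
  refine ⟨hN, liou_le_top hN, ⟨fun he => ?_, h1⟩,
    ⟨h2, fun ⟨κ, _, hκ⟩ => h1 (locSymmetric_of_constCurvature hκ)⟩⟩
  obtain ⟨κ, _, hκ⟩ := h2 he
  exact locSymmetric_of_constCurvature hκ

/-- negative curvature for both classes -/
theorem neg_of_pinchedThree {g : RMetric (EV 3) M} (h : RelPinched g ∨ PointwisePinched g) :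
    NegCurvature g :=
  h.elim (fun h => negCurvature_iff.2 (P207.Q.H717.negCurvature_of_rel h))
    fun h => negCurvature_iff.2 (P207.Q.H717.negCurvature_of_pointwise h)

end Vale.Agent.P207F.QP
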