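import Vale.Agent.P207.Q.H413.CoreRel
import Vale.Agent.P207.Q.H717.PPinch
import Vale.Agent.P207.Q.H791.UDataW
import Vale.Agent.P207.Q.H791.Final2

/-!
# P207, n = 3: the core theorem for pointwise `12/5`-pinched metrics
-/

open scoped Manifold ContDiff ENNReal Topology Matrix
open Bundle MeasureTheory Set Filter

set_option maxSynthPendingDepth 3
set_option linter.unusedSectionVars false

noncomputable section

namespace Vale.Agent.P207.Q.H791

open Vale.Agent.P255 (RMetric coefIn Gam Riem IsGeo Metric trans coefL)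
open Vale.Agent.P207 Vale.Agent.P207.Q Vale.Agent.P207.Q.H545 Vale.Agent.P207.Q.H892
open Vale.Agent.P207.Q.H413
open Vale.Agent.P207F (ConstCurvature PointwisePinched)

/-- **Core, pointwise pinching.** For a pointwise `12/5`-pinched metric on a closed 3-manifold,
equality of the Liouville entropy and the topological entropy forces constant curvature. -/
theorem core_pointwise {M : Type} [TopologicalSpace M] [ChartedSpace (EV 3) M]
    [IsManifold 𝓘(ℝ, EV 3) ∞ M] [CompactSpace M] [T2Space M] [ConnectedSpace M]
    [MeasurableSpace M] [BorelSpace M] (g : RMetric (EV 3) M) (hq : PointwisePinched g)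
    (φ : ℝ → P207.UT g → P207.UT g) (μ : Measure M) (m : Measure (P207.UT g))
    (hφ : P207.IsGeoFlow g φ) (hμ : P207.IsRiemVol g μ) (hm : P207.IsLiouville g μ m)
    (heq : P207.ksEntropy m (φ 1) = P207.topEntropy (φ 1)) : ∃ κ, ConstCurvature g κ := by
  obtain ⟨hsc, hne, hmp, mP, hP, hprob, hop⟩ := exists_setting hφ hμ hm
  have hneg : NegCurvature g := H717.negCurvature_of_pointwise hq
  obtain ⟨lam, Lam, hl, hle, hb⟩ :=
    H717.exists_bounds_of_neg (g := g) (i₀ := (0 : Fin 3)) (i₁ := 1) (by decide) hneg
  have hquad := fun f x y => H717.quadratic_bounds hb f x y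
  let H := horFlows g
  obtain ⟨D, hlo, hup, hric, hbb⟩ := exists_UDataW (cK hP hφ hmp)
    (frTF H hP hφ hmp H.hcomp dense_SmFr) hl hle
    (fun f x y => by
      rw [cK_K00, cK_K01, cK_K11]; linarith [(hquad f x y).1])
    (fun f x y => by
      rw [cK_K00, cK_K01, cK_K11]; linarith [(hquad f x y).2])
    (fun f => by
      rw [cK_K00, cK_K01, cK_K11]; exact (H717.pointwise_frames hq f).1)
  exact (const_of_UData_rel hneg hμ hm heq D hl hle hlo hup hric
    (fun f => (H717.pointwise_frames hq f).1) (fun f => (H717.pointwise_frames hq f).2.le)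
    hbb).1

end Vale.Agent.P207.Q.H791
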