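import Vale.Agent.P207.FDefs3
import Vale.Agent.P207.Bridge
import Vale.Agent.P207.Q.ConstSym
import Vale.Agent.P207.Q.H717.Pinch

/-!
# P207: the final statement for strictly quarter-pinched 3-manifolds, from the core theorem
-/

open scoped Manifold ContDiff ENNReal
open Bundle MeasureTheory Set Filter

noncomputable section

namespace Vale.Agent.P207F.QP

open Vale.Agent.P255 (RMetric innerAt coefIn Gam Riem IsGeo)
open Vale.Agent.P207F

section General

variable {n : ℕ} {M : Type} [TopologicalSpace M] [ChartedSpace (EV n) M]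
  [IsManifold 𝓘(ℝ, EV n) ∞ M] {g : RMetric (EV n) M}

/-- a metric of constant curvature is locally symmetric -/
theorem locSymmetric_of_constCurvature {κ : ℝ} (h : ConstCurvature g κ) : LocSymmetric g := by
  refine locSymmetric_iff.2 (P207.Q.locSymmetric_of_const (κ := -κ) fun a u hu v w => ?_)
  rw [h a u hu w v, gramDet]
  have hs : coefIn g a u w v = coefIn g a u v w := g.symm _ _ _
  rw [hs]
  ring

/-- the constant is positive -/
theorem pos_of_constCurvature [Nonempty M] (hn : 2 ≤ n) {κ : ℝ} (h : ConstCurvature g κ)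
    (hN : NegCurvature g) : 0 < κ := by
  obtain ⟨a⟩ : Nonempty M := ‹_›
  have hu : chartAt (EV n) a a ∈ (chartAt (EV n) a).target := mem_chart_target _ _
  have hli : LinearIndependent ℝ ![stdB n ⟨0, by omega⟩, stdB n ⟨1, by omega⟩] := by
    rw [LinearIndependent.pair_iff]
    intro s t hst
    have h0 := congrArg (fun w : EV n => w ⟨0, by omega⟩) hst
    have h1 := congrArg (fun w : EV n => w ⟨1, by omega⟩) hst
    simp [stdB] at h0 h1
    exact ⟨h0, h1⟩
  have h1 := hN a _ hu _ _ hli
  have h2 := P207.Q.H717.gramDet_pos g hu hli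
  rw [h a _ hu] at h1
  by_contra hk
  push Not at hk
  nlinarith

end General

/-- the Liouville entropy is at most the topological entropy -/
theorem ks_le_top {n : ℕ} (hn : 2 ≤ n) {M : Type} [TopologicalSpace M] [CompactSpace M]
    [T2Space M] [ConnectedSpace M] [ChartedSpace (EV n) M] [IsManifold 𝓘(ℝ, EV n) ∞ M]
    [MeasurableSpace M] [BorelSpace M] {g : RMetric (EV n) M} {φ : ℝ → P207.UT g → P207.UT g}
    {μ : Measure M} {m : Measure (P207.UT g)} (hφ : P207.IsGeoFlow g φ)
    (hμ : P207.IsRiemVol g μ) (hm : P207.IsLiouville g μ m) (h : P207.NegCurvature g) :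
    P207.ksEntropy m (φ 1) ≤ P207.topEntropy (φ 1) := by
  have := hm.1
  have h' := P207.npc_of_neg h
  have h2 := P207.stretch hφ hφ h' h' (ν := m)
    (fun t => P207.IsLiouville.measurePreserving (by omega) hφ hμ hm t) one_pos
    (by simp [P207.nrm_self])
  simpa using h2

variable {M : Type} [TopologicalSpace M] [CompactSpace M] [T2Space M] [ConnectedSpace M]
  [ChartedSpace (EV 3) M] [IsManifold 𝓘(ℝ, EV 3) ∞ M] [MeasurableSpace M] [BorelSpace M]

/-- the Liouville entropy is at most the topological entropy -/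
theorem liou_le_top {g : RMetric (EV 3) M} (hN : NegCurvature g) :
    hLiou (stdB 3) g ≤ hTop g := by
  have hW := wellDefined (by norm_num) g
  exact ks_le_top (by norm_num) ((hW.1 _).2 rfl) ((hW.2.1 _).2 rfl) ((hW.2.2 _).2 rfl)
    (negCurvature_iff.1 hN)

/-- the final statement from the core theorem -/
theorem final
    (core : ∀ g : RMetric (EV 3) M, QuarterPinched g → ∀ φ μ m, P207.IsGeoFlow g φ →
      P207.IsRiemVol g μ → P207.IsLiouville g μ m →
      P207.ksEntropy m (φ 1) = P207.topEntropy (φ 1) → ∃ κ, ConstCurvature g κ) :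
    (∀ g : RMetric (EV 3) M, WellDefined (stdB 3) g) ∧
    ∀ g : RMetric (EV 3) M, QuarterPinched g → NegCurvature g ∧ hLiou (stdB 3) g ≤ hTop g ∧
      (hLiou (stdB 3) g = hTop g ↔ LocSymmetric g) ∧
      (hLiou (stdB 3) g = hTop g ↔ ∃ κ : ℝ, 0 < κ ∧ ConstCurvature g κ) := by
  have hW := fun g : RMetric (EV 3) M => wellDefined (by norm_num) g
  refine ⟨hW, fun g hQ => ?_⟩
  have hN : NegCurvature g := negCurvature_iff.2 (P207.Q.H717.negCurvature_of_pinched hQ)
  have hφ := ((hW g).1 _).2 rfl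
  have hμ := ((hW g).2.1 _).2 rfl
  have hm := ((hW g).2.2 _).2 rfl
  have h1 : LocSymmetric g → hLiou (stdB 3) g = hTop g := fun hs =>
    P207.ksEntropy_eq_of_locSymmetric (by norm_num) hφ hμ hm hN hs
  have h2 : hLiou (stdB 3) g = hTop g → ∃ κ : ℝ, 0 < κ ∧ ConstCurvature g κ := by
    intro he
    obtain ⟨κ, hκ⟩ := core g hQ _ _ _ hφ hμ hm he
    exact ⟨κ, pos_of_constCurvature (by norm_num) hκ hN, hκ⟩
  refine ⟨hN, liou_le_top hN, ⟨fun he => ?_, h1⟩,
    ⟨h2, fun ⟨κ, _, hκ⟩ => h1 (locSymmetric_of_constCurvature hκ)⟩⟩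
  obtain ⟨κ, _, hκ⟩ := h2 he
  exact locSymmetric_of_constCurvature hκ

end Vale.Agent.P207F.QP
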